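import Vale.Agent.P096.Bridge

/-!
Representations near the inclusion, closeness of commutants and complete closeness.
-/

universe u

theorem Vale.Agent.Results.P096.NearRepresentations.result :
    ∃ C : ℝ, 0 ≤ C ∧ ∀ (H : Type u) [NormedAddCommGroup H] [InnerProductSpace ℂ H]
      [CompleteSpace H] (γ : ℝ), 0 ≤ γ →
      Vale.Agent.P096.RepRigid C γ H ∧ Vale.Agent.P096.IsoConj C γ H ∧
      Vale.Agent.P096.CommutantNear C γ H ∧ Vale.Agent.P096.CompleteNear C γ H :=
  Vale.Agent.P096.final
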