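import Vale.Agent.P096.Full.Main

/-!
Close algebras, one of them semifinite, are conjugate by a unitary near the
identity.
-/

theorem Vale.Agent.Results.P096.StrongConjectureSemifinite.result :
    Vale.Agent.P096.Semi.Target.{0} :=
  Vale.Agent.P096.Full.target
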