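import Vale.Agent.P096.Three.Univ.Transport
import Vale.Agent.P096.Three.Literal
import Vale.Agent.P096.Three.Main

/-!
The strong Kadison-Kastler statement: close von Neumann algebras are conjugate by a unitary near
the identity.
-/

universe u

theorem Vale.Agent.Results.P096.StrongKadisonKastler.result :
    ∃ δ C : ℝ, 0 < δ ∧ ∀ (H : Type u) [NormedAddCommGroup H]
      [InnerProductSpace ℂ H] [CompleteSpace H] (M N : VonNeumannAlgebra H),
      Vale.Agent.P096.Three.kkDist M N < δ → ∃ u : H →L[ℂ] H,
        ‖u - 1‖ ≤ C * Vale.Agent.P096.Three.kkDist M N ∧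
          Vale.Agent.P096.Three.Conjugates u M N :=
  Vale.Agent.P096.Three.literal.{u}
    (Vale.Agent.P096.Three.Univ.allTarget.{u} Vale.Agent.P096.Three.stdTarget)
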